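import Mathlib

/-!
# P016: Artin's primitive root conjecture reduces to odd powers

If `a ^ k` (`k ≥ 1`) is a primitive root modulo `p`, so is `a`.  For odd `k` the map `a ↦ a ^ k`
keeps the class of admissible bases (`a ≠ -1`, `a` not a perfect square).  Hence the conjecture for
all admissible bases is equivalent to the conjecture for the `k`-th powers of admissible bases.
-/

namespace Vale.Agent.Results.P016.OddPowerReduction

/-- `a` is a primitive root modulo the prime `p`: `p ∤ a` and the multiplicative order of `a`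
modulo `p` is `p - 1`. -/
def IsPrimRoot (a : ℤ) (p : ℕ) : Prop :=
  p.Prime ∧ ¬ (p : ℤ) ∣ a ∧ orderOf ((a : ZMod p)) = p - 1

/-- `a` is a primitive root modulo infinitely many primes. -/
def Artin (a : ℤ) : Prop := {p : ℕ | IsPrimRoot a p}.Infinite

/-- The bases of the conjecture: `a ≠ -1` and `a` is not a perfect square. -/
def Admissible (a : ℤ) : Prop := a ≠ -1 ∧ ¬ IsSquare a

theorem isPrimRoot_of_pow {a : ℤ} {k p : ℕ} (hk : 1 ≤ k) (h : IsPrimRoot (a ^ k) p) :
    IsPrimRoot a p := by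
  obtain ⟨hp, hnd, hord⟩ := h
  haveI : Fact p.Prime := ⟨hp⟩
  have hnd' : ¬ (p : ℤ) ∣ a := fun hd => hnd (dvd_pow hd (by omega))
  refine ⟨hp, hnd', ?_⟩
  have hne : (a : ZMod p) ≠ 0 := by
    intro h0
    exact hnd' ((ZMod.intCast_zmod_eq_zero_iff_dvd a p).1 h0)
  have h1 : orderOf ((a : ZMod p)) ∣ p - 1 := ZMod.orderOf_dvd_card_sub_one hne
  have h2 : orderOf (((a : ZMod p)) ^ k) ∣ orderOf ((a : ZMod p)) := orderOf_pow_dvd k
  have h3 : ((a ^ k : ℤ) : ZMod p) = ((a : ZMod p)) ^ k := by push_cast; rfl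
  rw [h3] at hord
  rw [hord] at h2
  exact Nat.dvd_antisymm h1 h2

theorem admissible_pow {a : ℤ} {k : ℕ} (hk : Odd k) (h : Admissible a) : Admissible (a ^ k) := by
  obtain ⟨h1, h2⟩ := h
  obtain ⟨j, rfl⟩ := hk
  constructor
  · intro he
    apply h1
    have hu : IsUnit a := by
      have : IsUnit (a ^ (2 * j + 1)) := by rw [he]; exact isUnit_one.neg
      exact (isUnit_pow_iff (by omega)).1 this
    rcases Int.isUnit_iff.1 hu with h | h
    · rw [h] at he
      simp at he
    · exact h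
  · rintro ⟨m, hm⟩
    apply h2
    by_cases ha : a = 0
    · exact ⟨0, by simp [ha]⟩
    have hb : a ^ j ≠ 0 := pow_ne_zero _ ha
    have e1 : m ^ 2 = a * (a ^ j) ^ 2 := by
      rw [sq, ← hm]
      ring
    have hd : (a ^ j) ^ 2 ∣ m ^ 2 := ⟨a, by rw [e1]; ring⟩
    have hd' : a ^ j ∣ m := (Int.pow_dvd_pow_iff (by norm_num)).1 hd
    obtain ⟨c, hc⟩ := hd'
    refine ⟨c, ?_⟩
    have e2 : (a ^ j) ^ 2 * (c * c) = (a ^ j) ^ 2 * a := by
      have : m ^ 2 = (a ^ j) ^ 2 * (c * c) := by rw [hc]; ring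
      rw [← this, e1]
      ring
    exact (mul_left_cancel₀ (pow_ne_zero 2 hb) e2).symm

/-- (1) If `a ^ k`, `k ≥ 1`, is a primitive root modulo `p`, then so is `a`.
(2) So if `a ^ k` is a primitive root modulo infinitely many primes, then so is `a`.
(3) For odd `k`, the `k`-th power of an admissible base is admissible.
(4) For every odd `k`: Artin's conjecture for all admissible bases is equivalent to Artin's
conjecture for the `k`-th powers of the admissible bases. -/
theorem result :
    (∀ (a : ℤ) (k p : ℕ), 1 ≤ k → IsPrimRoot (a ^ k) p → IsPrimRoot a p) ∧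
    (∀ (a : ℤ) (k : ℕ), 1 ≤ k → Artin (a ^ k) → Artin a) ∧
    (∀ (a : ℤ) (k : ℕ), Odd k → Admissible a → Admissible (a ^ k)) ∧
    (∀ k : ℕ, Odd k →
      ((∀ a : ℤ, Admissible a → Artin a) ↔ (∀ a : ℤ, Admissible a → Artin (a ^ k)))) := by
  have h2 : ∀ (a : ℤ) (k : ℕ), 1 ≤ k → Artin (a ^ k) → Artin a := by
    intro a k hk h
    exact h.mono fun p hp => isPrimRoot_of_pow hk hp
  refine ⟨fun a k p hk h => isPrimRoot_of_pow hk h, h2, fun a k hk h => admissible_pow hk h, ?_⟩
  intro k hk
  constructor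
  · intro h a ha
    exact h _ (admissible_pow hk ha)
  · intro h a ha
    exact h2 a k hk.pos (h a ha)

end Vale.Agent.Results.P016.OddPowerReduction
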